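import Vale.Agent.P151.Bdl.B1

/-!
# P151: the quasi-triangle inequality of helper505

For Bernoulli percolation on a finite graph and an increasing property `al` of clusters,
`P(x al, y al, x not<-> y) * P(z al) ≤ 10 P(x al, y al, x not<-> y, z al)`.
-/

set_option autoImplicit false
set_option linter.unusedSectionVars false

open Finset

namespace Vale.Agent.P151.TC.H49

open Vale.Agent.P151

/-! ### indicators and expectations -/

open Classical in
/-- indicator -/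
noncomputable def ind (P : Prop) : ℝ := if P then 1 else 0

theorem ind_of {P : Prop} (h : P) : ind P = 1 := by simp [ind, h]
theorem ind_not {P : Prop} (h : ¬ P) : ind P = 0 := by simp [ind, h]
theorem ind_nonneg (P : Prop) : 0 ≤ ind P := by
  unfold ind; split_ifs <;> norm_num
theorem ind_le_one (P : Prop) : ind P ≤ 1 := by
  unfold ind; split_ifs <;> norm_num
theorem ind_mono {P Q : Prop} (h : P → Q) : ind P ≤ ind Q := by
  by_cases hP : P
  · rw [ind_of hP, ind_of (h hP)]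
  · rw [ind_not hP]; exact ind_nonneg Q
theorem ind_congr {P Q : Prop} (h : P ↔ Q) : ind P = ind Q :=
  le_antisymm (ind_mono h.1) (ind_mono h.2)

variable {V : Type*} [DecidableEq V]

/-- expectation when the edges of `S0` are open and those of `Λ` are random -/
noncomputable def E (p : ℝ) (Λ S0 : Finset (Sym2 V)) (F : Finset (Sym2 V) → ℝ) : ℝ :=
  Ex p Λ (fun S => F (S0 ∪ S))

theorem E_step (p : ℝ) {Λ : Finset (Sym2 V)} {e : Sym2 V} (he : e ∈ Λ) (S0 : Finset (Sym2 V))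
    (F : Finset (Sym2 V) → ℝ) :
    E p Λ S0 F = p * E p (Λ.erase e) (insert e S0) F + (1 - p) * E p (Λ.erase e) S0 F := by
  unfold E
  conv_lhs => rw [← Finset.insert_erase he]
  rw [Ex_insert p (Finset.notMem_erase e Λ)]
  simp only [Finset.union_insert, Finset.insert_union]

theorem E_mono {p : ℝ} (h0 : 0 ≤ p) (h1 : p ≤ 1) {Λ S0 : Finset (Sym2 V)}
    {F G : Finset (Sym2 V) → ℝ} (h : ∀ S ⊆ Λ, F (S0 ∪ S) ≤ G (S0 ∪ S)) :
    E p Λ S0 F ≤ E p Λ S0 G := Ex_mono h0 h1 h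

theorem E_nonneg {p : ℝ} (h0 : 0 ≤ p) (h1 : p ≤ 1) {Λ S0 : Finset (Sym2 V)}
    {F : Finset (Sym2 V) → ℝ} (h : ∀ T, 0 ≤ F T) : 0 ≤ E p Λ S0 F :=
  Ex_nonneg h0 h1 (fun _ _ => h _)

theorem E_congr {p : ℝ} {Λ S0 : Finset (Sym2 V)}
    {F G : Finset (Sym2 V) → ℝ} (h : ∀ S ⊆ Λ, F (S0 ∪ S) = G (S0 ∪ S)) :
    E p Λ S0 F = E p Λ S0 G := Ex_congr p h

/-- comparison of the two branches -/
theorem E_br_le {p : ℝ} (h0 : 0 ≤ p) (h1 : p ≤ 1) {Λ S0 : Finset (Sym2 V)} {e : Sym2 V}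
    {F G : Finset (Sym2 V) → ℝ} (h : ∀ S ⊆ Λ, F (insert e (S0 ∪ S)) ≤ G (S0 ∪ S)) :
    E p Λ (insert e S0) F ≤ E p Λ S0 G := by
  unfold E
  refine Ex_mono h0 h1 fun S hS => ?_
  rw [Finset.insert_union]
  exact h S hS

theorem E_br_ge {p : ℝ} (h0 : 0 ≤ p) (h1 : p ≤ 1) {Λ S0 : Finset (Sym2 V)} {e : Sym2 V}
    {F G : Finset (Sym2 V) → ℝ} (h : ∀ S ⊆ Λ, G (S0 ∪ S) ≤ F (insert e (S0 ∪ S))) :
    E p Λ S0 G ≤ E p Λ (insert e S0) F := by
  unfold E
  refine Ex_mono h0 h1 fun S hS => ?_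
  rw [Finset.insert_union]
  exact h S hS

theorem E_br_eq {p : ℝ} {Λ S0 : Finset (Sym2 V)} {e : Sym2 V}
    {F G : Finset (Sym2 V) → ℝ} (h : ∀ S ⊆ Λ, F (insert e (S0 ∪ S)) = G (S0 ∪ S)) :
    E p Λ (insert e S0) F = E p Λ S0 G := by
  unfold E
  refine Ex_congr p fun S hS => ?_
  rw [Finset.insert_union]
  exact h S hS

theorem E_zero (p : ℝ) (Λ S0 : Finset (Sym2 V)) : E p Λ S0 (fun _ => 0) = 0 := by
  unfold E; simp

theorem E_add (p : ℝ) (Λ S0 : Finset (Sym2 V)) (F G : Finset (Sym2 V) → ℝ) :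
    E p Λ S0 (fun T => F T + G T) = E p Λ S0 F + E p Λ S0 G := Ex_add p Λ _ _

theorem E_sum {κ : Type*} (p : ℝ) (Λ S0 : Finset (Sym2 V)) (s : Finset κ)
    (F : κ → Finset (Sym2 V) → ℝ) :
    E p Λ S0 (fun T => ∑ k ∈ s, F k T) = ∑ k ∈ s, E p Λ S0 (F k) := Ex_sum p Λ s _

theorem E_mul_const (p : ℝ) (Λ S0 : Finset (Sym2 V)) (F : Finset (Sym2 V) → ℝ) (c : ℝ) :
    E p Λ S0 (fun T => F T * c) = E p Λ S0 F * c := Ex_mul_const p Λ c _

theorem E_le_one {p : ℝ} (h0 : 0 ≤ p) (h1 : p ≤ 1) {Λ S0 : Finset (Sym2 V)}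
    {F : Finset (Sym2 V) → ℝ} (h : ∀ T, F T ≤ 1) : E p Λ S0 F ≤ 1 :=
  Ex_le_const h0 h1 (fun _ _ => h _)

/-! ### configurations -/

variable (al : Finset V → Prop)

/-- `z` is alive -/
noncomputable def fl (z : V) (T : Finset (Sym2 V)) : ℝ := ind (al (cl T z))

/-- `K_y = Y`, `x` alive, `z` in neither cluster -/
noncomputable def fr (x y z : V) (Y : Finset V) (T : Finset (Sym2 V)) : ℝ :=
  ind (cl T y = Y ∧ z ∉ Y ∧ x ∉ Y ∧ al (cl T x) ∧ ¬ Cn T z x)

/-- `K_y = Y`, `x` alive, `z` in the cluster of `x` -/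
noncomputable def fh (x y z : V) (Y : Finset V) (T : Finset (Sym2 V)) : ℝ :=
  ind (cl T y = Y ∧ z ∉ Y ∧ x ∉ Y ∧ al (cl T x) ∧ Cn T z x)

/-- `K_x = X`, `K_y = Y` -/
noncomputable def fp (x y z : V) (X Y : Finset V) (T : Finset (Sym2 V)) : ℝ :=
  ind (cl T x = X ∧ cl T y = Y ∧ z ∉ X ∧ z ∉ Y ∧ x ∉ Y ∧ y ∉ X)

theorem fp_swap (x y z : V) (X Y : Finset V) (T : Finset (Sym2 V)) :
    fp x y z X Y T = fp y x z Y X T := by
  unfold fp
  apply ind_congr
  tauto

theorem cl_insert_of_not {T : Finset (Sym2 V)} {c u v : V} (h1 : ¬ Cn T v c) (h2 : ¬ Cn T v u) :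
    cl (insert s(c, u) T) v = cl T v := by
  ext w
  rw [mem_cl, mem_cl, Cn_insert]
  constructor
  · rintro (h | ⟨h, _⟩ | ⟨h, _⟩)
    · exact h
    · exact absurd h h1
    · exact absurd h h2
  · exact Or.inl

section Conf

variable {al} {x y z c u : V} {T : Finset (Sym2 V)}

theorem cn_edge : Cn (insert s(c, u) T) c u := Cn_of_mem (Finset.mem_insert_self _ _)

theorem touch (hzc : Cn T z c) {Y : Finset V} (hu : u ∈ Y)
    (h : cl (insert s(c, u) T) y = Y) : z ∈ Y := by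
  have h1 : Cn (insert s(c, u) T) y u := by rw [← mem_cl, h]; exact hu
  rw [← h, mem_cl]
  exact h1.trans (cn_edge.symm.trans (hzc.mono (Finset.subset_insert _ _)).symm)

theorem fr_touch (hzc : Cn T z c) {Y : Finset V} (hu : u ∈ Y) :
    fr al x y z Y (insert s(c, u) T) = 0 := by
  unfold fr
  exact ind_not fun h => h.2.1 (touch hzc hu h.1)

theorem fh_touch (hzc : Cn T z c) {Y : Finset V} (hu : u ∈ Y) :
    fh al x y z Y (insert s(c, u) T) = 0 := by
  unfold fh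
  exact ind_not fun h => h.2.1 (touch hzc hu h.1)

theorem fp_touch_left (hzc : Cn T z c) {X Y : Finset V} (hu : u ∈ X) :
    fp x y z X Y (insert s(c, u) T) = 0 := by
  unfold fp
  exact ind_not fun h => h.2.2.1 (touch hzc hu h.1)

theorem fp_touch_right (hzc : Cn T z c) {X Y : Finset V} (hu : u ∈ Y) :
    fp x y z X Y (insert s(c, u) T) = 0 := by
  unfold fp
  exact ind_not fun h => h.2.2.2.1 (touch hzc hu h.2.1)

/-- clusters avoiding `z` and `u` are not changed by the edge -/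
theorem cl_down (hzc : Cn T z c) {Y : Finset V} (hu : u ∉ Y) (hz : z ∉ Y)
    (h : cl (insert s(c, u) T) y = Y) : cl T y = Y := by
  have hs := Finset.subset_insert s(c, u) T
  have h1 : ¬ Cn T y c := fun h2 => hz (by
    rw [← h, mem_cl]; exact (h2.trans hzc.symm).mono hs)
  have h3 : ¬ Cn T y u := fun h2 => hu (by rw [← h, mem_cl]; exact h2.mono hs)
  rw [← h, cl_insert_of_not h1 h3]

theorem cl_up (hzc : Cn T z c) {Y : Finset V} (hu : u ∉ Y) (hz : z ∉ Y)
    (h : cl T y = Y) : cl (insert s(c, u) T) y = Y := by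
  have h1 : ¬ Cn T y c := fun h2 => hz (by
    rw [← h, mem_cl]; exact h2.trans hzc.symm)
  have h3 : ¬ Cn T y u := fun h2 => hu (by rw [← h, mem_cl]; exact h2)
  rw [cl_insert_of_not h1 h3, h]

theorem fr_le (hzc : Cn T z c) {Y : Finset V} :
    fr al x y z Y (insert s(c, u) T) ≤ fr al x y z Y T := by
  by_cases hu : u ∈ Y
  · rw [fr_touch hzc hu]; exact ind_nonneg _
  unfold fr
  refine ind_mono ?_
  rintro ⟨h1, h2, h3, h4, h5⟩
  have hs := Finset.subset_insert s(c, u) T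
  have h6 : ¬ Cn T x c := fun h => h5 ((h.trans hzc.symm).mono hs).symm
  have h7 : ¬ Cn T x u := fun h => h5
    ((hzc.mono hs).trans (cn_edge.trans (h.mono hs).symm))
  rw [cl_insert_of_not h6 h7] at h4
  exact ⟨cl_down hzc hu h2 h1, h2, h3, h4, fun h => h5 (h.mono hs)⟩

theorem fh_ge (hal : ∀ A B : Finset V, A ⊆ B → al A → al B) (hzc : Cn T z c) {Y : Finset V}
    (hu : u ∉ Y) :
    fh al x y z Y T + fr al x y z Y T * ind (u ∈ cl T x) ≤
      fh al x y z Y (insert s(c, u) T) := by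
  have hs := Finset.subset_insert s(c, u) T
  by_cases h : cl T y = Y ∧ z ∉ Y ∧ x ∉ Y ∧ al (cl T x) ∧ Cn T z x
  · have h1 : fh al x y z Y T = 1 := ind_of h
    have h2 : fr al x y z Y T = 0 := ind_not fun h' => h'.2.2.2.2 h.2.2.2.2
    have h3 : fh al x y z Y (insert s(c, u) T) = 1 := by
      refine ind_of ⟨cl_up hzc hu h.2.1 h.1, h.2.1, h.2.2.1, ?_, h.2.2.2.2.mono hs⟩
      exact hal _ _ (cl_mono hs x) h.2.2.2.1
    rw [h1, h2, h3]; norm_num
  have h1 : fh al x y z Y T = 0 := ind_not h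
  rw [h1, zero_add]
  by_cases h' : (cl T y = Y ∧ z ∉ Y ∧ x ∉ Y ∧ al (cl T x) ∧ ¬ Cn T z x) ∧ u ∈ cl T x
  · obtain ⟨h2, h3⟩ := h'
    have h4 : fh al x y z Y (insert s(c, u) T) = 1 := by
      refine ind_of ⟨cl_up hzc hu h2.2.1 h2.1, h2.2.1, h2.2.2.1, ?_, ?_⟩
      · exact hal _ _ (cl_mono hs x) h2.2.2.2.1
      · rw [mem_cl] at h3
        exact (hzc.mono hs).trans (cn_edge.trans (h3.mono hs).symm)
    rw [h4]
    calc fr al x y z Y T * ind (u ∈ cl T x) ≤ 1 * 1 :=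
          mul_le_mul (ind_le_one _) (ind_le_one _) (ind_nonneg _) zero_le_one
      _ = 1 := one_mul 1
  · have h5 : fr al x y z Y T * ind (u ∈ cl T x) = 0 := by
      by_cases h2 : cl T y = Y ∧ z ∉ Y ∧ x ∉ Y ∧ al (cl T x) ∧ ¬ Cn T z x
      · rw [ind_not (fun h3 => h' ⟨h2, h3⟩), mul_zero]
      · unfold fr; rw [ind_not h2, zero_mul]
    rw [h5]; exact ind_nonneg _

theorem q_one (hzc : Cn T z c) {Y : Finset V} :
    fr al x y z Y (insert s(c, u) T) * ind (u ∈ cl (insert s(c, u) T) x) = 0 := by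
  by_cases h : u ∈ cl (insert s(c, u) T) x
  · have : fr al x y z Y (insert s(c, u) T) = 0 := by
      refine ind_not fun h' => h'.2.2.2.2 ?_
      rw [mem_cl] at h
      exact (hzc.mono (Finset.subset_insert _ _)).trans (cn_edge.trans h.symm)
    rw [this, zero_mul]
  · rw [ind_not h, mul_zero]

theorem q_touch {Y : Finset V} (hu : u ∈ Y) : fr al x y z Y T * ind (u ∈ cl T x) = 0 := by
  by_cases h : u ∈ cl T x
  · have : fr al x y z Y T = 0 := by
      refine ind_not fun h' => h'.2.2.1 ?_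
      rw [mem_cl] at h
      have h1 : Cn T y u := by rw [← mem_cl, h'.1]; exact hu
      rw [← h'.1, mem_cl]
      exact h1.trans h.symm
    rw [this, zero_mul]
  · rw [ind_not h, mul_zero]

theorem fp_same (hzc : Cn T z c) {X Y : Finset V} (hX : u ∉ X) (hY : u ∉ Y) :
    fp x y z X Y (insert s(c, u) T) = fp x y z X Y T := by
  unfold fp
  apply ind_congr
  constructor
  · rintro ⟨h1, h2, h3, h4, h5, h6⟩
    exact ⟨cl_down hzc hX h3 h1, cl_down hzc hY h4 h2, h3, h4, h5, h6⟩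
  · rintro ⟨h1, h2, h3, h4, h5, h6⟩
    exact ⟨cl_up hzc hX h3 h1, cl_up hzc hY h4 h2, h3, h4, h5, h6⟩

theorem fl_le (hal : ∀ A B : Finset V, A ⊆ B → al A → al B) (e : Sym2 V) :
    fl al z T ≤ fl al z (insert e T) :=
  ind_mono (hal _ _ (cl_mono (Finset.subset_insert _ _) z))

end Conf

/-! ### sums over clusters -/

open Classical in
/-- the possible alive clusters of `x` -/
noncomputable def cls (M : Finset (Sym2 V)) (x : V) : Finset (Finset V) :=
  (M.powerset.image fun S => cl S x).filter al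

theorem mem_cls {M T : Finset (Sym2 V)} {x : V} (hT : T ⊆ M) (h : al (cl T x)) :
    cl T x ∈ cls al M x := by
  classical
  unfold cls
  rw [Finset.mem_filter]
  exact ⟨Finset.mem_image.2 ⟨T, Finset.mem_powerset.2 hT, rfl⟩, h⟩

theorem al_of_mem {M : Finset (Sym2 V)} {x : V} {X : Finset V} (h : X ∈ cls al M x) : al X := by
  classical
  unfold cls at h
  exact (Finset.mem_filter.1 h).2

theorem sum_fp {M T : Finset (Sym2 V)} {x y z : V} (hT : T ⊆ M) (Y : Finset V)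
    (g : Finset V → ℝ) :
    ∑ X ∈ cls al M x, fp x y z X Y T * g X = fr al x y z Y T * g (cl T x) := by
  by_cases h : al (cl T x)
  · rw [Finset.sum_eq_single_of_mem (cl T x) (mem_cls al hT h)]
    · congr 1
      unfold fp fr
      apply ind_congr
      constructor
      · rintro ⟨-, h2, h3, h4, h5, -⟩
        refine ⟨h2, h4, h5, h, fun h6 => h3 ?_⟩
        rw [mem_cl]; exact h6.symm
      · rintro ⟨h1, h2, h3, -, h5⟩
        refine ⟨rfl, h1, ?_, h2, h3, ?_⟩
        · rw [mem_cl]; exact fun h6 => h5 h6.symm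
        · rw [mem_cl]
          intro h6
          apply h3
          rw [← h1, mem_cl]; exact h6.symm
    · intro X _ hX
      have : fp x y z X Y T = 0 := ind_not fun h' => hX h'.1.symm
      rw [this, zero_mul]
  · have h1 : fr al x y z Y T = 0 := ind_not fun h' => h h'.2.2.2.1
    rw [h1, zero_mul]
    refine Finset.sum_eq_zero fun X hX => ?_
    have : fp x y z X Y T = 0 := ind_not fun h' => h (by rw [h'.1]; exact al_of_mem al hX)
    rw [this, zero_mul]

end Vale.Agent.P151.TC.H49
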