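import Vale.Agent.P151.TC.H49.TC

/-!
# P151: the quasi-triangle inequality of helper505, the induction over the exploration
-/

set_option autoImplicit false
set_option linter.unusedSectionVars false

open Finset

namespace Vale.Agent.P151.TC.H49

open Vale.Agent.P151

variable {V : Type*} [DecidableEq V] (al : Finset V → Prop)

/-- the bounds for one of the two roles of `x`, `y` -/
structure Side (x y z : V) (p m : ℝ) (M Λ S0 : Finset (Sym2 V))
    (G W : Finset V → Finset V → ℝ) : Prop where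
  G0 : ∀ X Y, 0 ≤ G X Y
  W0 : ∀ X Y, 0 ≤ W X Y
  hG : ∀ Y, m * ∑ X ∈ cls al M x, G X Y ≤ E p Λ S0 (fh al x y z Y)
  hW : ∀ Y, ∑ X ∈ cls al M x, W X Y ≤
    E p Λ S0 (fh al x y z Y) * (1 - E p Λ S0 (fl al z)) +
      m * E p Λ S0 (fr al x y z Y) * E p Λ S0 (fl al z)

theorem sum_rp_mul {M Λ S0 : Finset (Sym2 V)} (hM : S0 ∪ Λ ⊆ M) {x y z : V} (p : ℝ)
    (Y : Finset V) (g : Finset V → ℝ) :
    ∑ X ∈ cls al M x, E p Λ S0 (fp x y z X Y) * g X =
      E p Λ S0 (fun T => fr al x y z Y T * g (cl T x)) := by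
  have h1 : ∀ X, E p Λ S0 (fp x y z X Y) * g X = E p Λ S0 (fun T => fp x y z X Y T * g X) :=
    fun X => (E_mul_const p Λ S0 _ _).symm
  simp only [h1]
  rw [← E_sum]
  refine E_congr fun S hS => ?_
  exact sum_fp al (Finset.union_subset (Finset.subset_union_left.trans hM)
    (hS.trans (Finset.subset_union_right.trans hM))) Y g

theorem sum_rp {M Λ S0 : Finset (Sym2 V)} (hM : S0 ∪ Λ ⊆ M) {x y z : V} (p : ℝ)
    (Y : Finset V) :
    ∑ X ∈ cls al M x, E p Λ S0 (fp x y z X Y) = E p Λ S0 (fr al x y z Y) := by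
  have := sum_rp_mul al hM p Y (fun _ => 1) (x := x) (y := y) (z := z)
  simpa using this

open Classical in
/-- the new functions at a state -/
noncomputable def stG (x y z : V) (p m : ℝ) (Λ S0 : Finset (Sym2 V))
    (G1 G0 : Finset V → Finset V → ℝ) (X Y : Finset V) : ℝ :=
  if m * E p Λ S0 (fr al x y z Y) ≤ E p Λ S0 (fh al x y z Y) then E p Λ S0 (fp x y z X Y)
  else p * G1 X Y + (1 - p) * G0 X Y

open Classical in
/-- the new functions at a state -/
noncomputable def stW (x y z : V) (p m : ℝ) (Λ S0 : Finset (Sym2 V)) (a : ℝ) (u : V)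
    (W1 W0 : Finset V → Finset V → ℝ) (X Y : Finset V) : ℝ :=
  if m * E p Λ S0 (fr al x y z Y) ≤ E p Λ S0 (fh al x y z Y) then 0
  else a * (E p Λ S0 (fp x y z X Y) * ind (u ∈ X)) + (p * W1 X Y + (1 - p) * W0 X Y)

section Step

variable {al} {x y z c u : V} {p m : ℝ} {M Λ S0 : Finset (Sym2 V)}

theorem fp_nonneg (h0 : 0 ≤ p) (h1 : p ≤ 1) (X Y : Finset V) :
    0 ≤ E p Λ S0 (fp x y z X Y) := E_nonneg h0 h1 fun _ => ind_nonneg _

theorem side_step (h0 : 0 ≤ p) (h1 : p ≤ 1) (hm : 0 < m)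
    (hal : ∀ A B : Finset V, A ⊆ B → al A → al B)
    (hM : S0 ∪ Λ ⊆ M) (he : s(c, u) ∈ Λ) (hc : Cn S0 z c)
    {G1 W1 G0 W0 : Finset V → Finset V → ℝ}
    (s1 : Side al x y z p m M (Λ.erase s(c, u)) (insert s(c, u) S0) G1 W1)
    (s0 : Side al x y z p m M (Λ.erase s(c, u)) S0 G0 W0) :
    Side al x y z p m M Λ S0 (stG al x y z p m Λ S0 G1 G0)
      (stW al x y z p m Λ S0 (E p Λ S0 (fl al z) - E p (Λ.erase s(c, u)) S0 (fl al z)) u
        W1 W0) := by
  classical
  have hq0 : 0 ≤ 1 - p := by linarith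
  have hz : ∀ S : Finset (Sym2 V), Cn (S0 ∪ S) z c := fun S => hc.mono Finset.subset_union_left
  have hl := E_step p he S0 (fl al z)
  have hl01 : E p (Λ.erase s(c, u)) S0 (fl al z) ≤
      E p (Λ.erase s(c, u)) (insert s(c, u) S0) (fl al z) :=
    E_br_ge h0 h1 fun S _ => fl_le hal _
  have hl1 : E p (Λ.erase s(c, u)) (insert s(c, u) S0) (fl al z) ≤ 1 :=
    E_le_one h0 h1 fun _ => ind_le_one _
  have hl0 : 0 ≤ E p (Λ.erase s(c, u)) S0 (fl al z) := E_nonneg h0 h1 fun _ => ind_nonneg _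
  have hle1 : E p Λ S0 (fl al z) ≤ 1 := E_le_one h0 h1 fun _ => ind_le_one _
  have hle0 : 0 ≤ E p Λ S0 (fl al z) := E_nonneg h0 h1 fun _ => ind_nonneg _
  have ha : 0 ≤ E p Λ S0 (fl al z) - E p (Λ.erase s(c, u)) S0 (fl al z) := by
    rw [hl]; nlinarith
  refine ⟨?_, ?_, ?_, ?_⟩
  · intro X Y
    unfold stG
    split_ifs
    · exact fp_nonneg h0 h1 X Y
    · exact add_nonneg (mul_nonneg h0 (s1.G0 X Y)) (mul_nonneg hq0 (s0.G0 X Y))
  · intro X Y
    unfold stW
    split_ifs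
    · exact le_rfl
    · exact add_nonneg (mul_nonneg ha (mul_nonneg (fp_nonneg h0 h1 X Y) (ind_nonneg _)))
        (add_nonneg (mul_nonneg h0 (s1.W0 X Y)) (mul_nonneg hq0 (s0.W0 X Y)))
  · intro Y
    by_cases hst : m * E p Λ S0 (fr al x y z Y) ≤ E p Λ S0 (fh al x y z Y)
    · simp only [stG, if_pos hst]
      rw [sum_rp al hM]
      exact hst
    · simp only [stG, if_neg hst]
      rw [Finset.sum_add_distrib, ← Finset.mul_sum, ← Finset.mul_sum, E_step p he S0]
      have e1 := mul_le_mul_of_nonneg_left (s1.hG Y) h0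
      have e0 := mul_le_mul_of_nonneg_left (s0.hG Y) hq0
      linarith
  · intro Y
    have hr0 : 0 ≤ E p Λ S0 (fr al x y z Y) := E_nonneg h0 h1 fun _ => ind_nonneg _
    have hh0 : 0 ≤ E p Λ S0 (fh al x y z Y) := E_nonneg h0 h1 fun _ => ind_nonneg _
    by_cases hst : m * E p Λ S0 (fr al x y z Y) ≤ E p Λ S0 (fh al x y z Y)
    · simp only [stW, if_pos hst, Finset.sum_const_zero]
      exact add_nonneg (mul_nonneg hh0 (by linarith)) (mul_nonneg (mul_nonneg hm.le hr0) hle0)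
    · simp only [stW, if_neg hst]
      rw [Finset.sum_add_distrib, Finset.sum_add_distrib, ← Finset.mul_sum, ← Finset.mul_sum,
        ← Finset.mul_sum, sum_rp_mul al hM p Y (fun X => ind (u ∈ X))]
      have hr := E_step p he S0 (fr al x y z Y)
      have hh := E_step p he S0 (fh al x y z Y)
      have hq := E_step p he S0 (fun T => fr al x y z Y T * ind (u ∈ cl T x))
      have hq1 : E p (Λ.erase s(c, u)) (insert s(c, u) S0)
          (fun T => fr al x y z Y T * ind (u ∈ cl T x)) = 0 := by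
        rw [E_br_eq (G := fun _ => 0) (fun S _ => q_one (hz S)), E_zero]
      rw [hq1] at hq
      have e1 := mul_le_mul_of_nonneg_left (s1.hW Y) h0
      have e0 := mul_le_mul_of_nonneg_left (s0.hW Y) hq0
      push Not at hst
      by_cases hu : u ∈ Y
      · have hr1 : E p (Λ.erase s(c, u)) (insert s(c, u) S0) (fr al x y z Y) = 0 := by
          rw [E_br_eq (G := fun _ => 0) (fun S _ => fr_touch (hz S) hu), E_zero]
        have hh1 : E p (Λ.erase s(c, u)) (insert s(c, u) S0) (fh al x y z Y) = 0 := by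
          rw [E_br_eq (G := fun _ => 0) (fun S _ => fh_touch (hz S) hu), E_zero]
        have hq2 : E p (Λ.erase s(c, u)) S0 (fun T => fr al x y z Y T * ind (u ∈ cl T x)) = 0 := by
          rw [E_congr (G := fun _ => 0) (fun S _ => q_touch hu), E_zero]
        rw [hr1] at hr e1
        rw [hh1] at hh e1
        rw [hq2] at hq
        rw [hq]
        generalize E p Λ S0 (fl al z) = l at *
        generalize E p (Λ.erase s(c, u)) S0 (fl al z) = l0 at *
        generalize E p (Λ.erase s(c, u)) (insert s(c, u) S0) (fl al z) = l1 at *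
        generalize E p Λ S0 (fr al x y z Y) = r at *
        generalize E p Λ S0 (fh al x y z Y) = h at *
        generalize E p (Λ.erase s(c, u)) S0 (fr al x y z Y) = r0 at *
        generalize E p (Λ.erase s(c, u)) S0 (fh al x y z Y) = h00 at *
        generalize ∑ X ∈ cls al M x, W1 X Y = w1 at *
        generalize ∑ X ∈ cls al M x, W0 X Y = w0 at *
        have k1 : r = (1 - p) * r0 := by linarith
        have k2 : h = (1 - p) * h00 := by linarith
        have k3 : (1 - p) * (h00 * (1 - l0) + m * r0 * l0) = h * (1 - l0) + m * r * l0 := by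
          rw [k1, k2]; ring
        have k4 : 0 ≤ (m * r - h) * (l - l0) := mul_nonneg (by linarith) ha
        nlinarith
      · have hrle : E p (Λ.erase s(c, u)) (insert s(c, u) S0) (fr al x y z Y) ≤
            E p (Λ.erase s(c, u)) S0 (fr al x y z Y) :=
          E_br_le h0 h1 fun S _ => fr_le (hz S)
        have hhge : E p (Λ.erase s(c, u)) S0 (fh al x y z Y) +
            E p (Λ.erase s(c, u)) S0 (fun T => fr al x y z Y T * ind (u ∈ cl T x)) ≤
            E p (Λ.erase s(c, u)) (insert s(c, u) S0) (fh al x y z Y) := by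
          rw [← E_add]
          exact E_br_ge h0 h1 fun S _ => fh_ge hal (hz S) hu
        rw [hq]
        generalize E p Λ S0 (fl al z) = l at *
        generalize E p (Λ.erase s(c, u)) S0 (fl al z) = l0 at *
        generalize E p (Λ.erase s(c, u)) (insert s(c, u) S0) (fl al z) = l1 at *
        generalize E p Λ S0 (fr al x y z Y) = r at *
        generalize E p Λ S0 (fh al x y z Y) = h at *
        generalize E p (Λ.erase s(c, u)) S0 (fr al x y z Y) = r0 at *
        generalize E p (Λ.erase s(c, u)) S0 (fh al x y z Y) = h00 at *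
        generalize E p (Λ.erase s(c, u)) (insert s(c, u) S0) (fr al x y z Y) = r1 at *
        generalize E p (Λ.erase s(c, u)) (insert s(c, u) S0) (fh al x y z Y) = h11 at *
        generalize E p (Λ.erase s(c, u)) S0 (fun T => fr al x y z Y T * ind (u ∈ cl T x)) = q0
          at *
        generalize ∑ X ∈ cls al M x, W1 X Y = w1 at *
        generalize ∑ X ∈ cls al M x, W0 X Y = w0 at *
        have k0 : 0 ≤ p * (1 - p) := mul_nonneg h0 hq0
        have k1 : 0 ≤ p * (1 - p) * ((l1 - l0) * (h11 - h00 - q0)) :=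
          mul_nonneg k0 (mul_nonneg (by linarith) (by linarith))
        have k2 : 0 ≤ p * (1 - p) * (m * ((l1 - l0) * (r0 - r1))) :=
          mul_nonneg k0 (mul_nonneg hm.le (mul_nonneg (by linarith) (by linarith)))
        have k3 : h * (1 - l) + m * r * l - ((l - l0) * (p * 0 + (1 - p) * q0) +
            (p * (h11 * (1 - l1) + m * r1 * l1) + (1 - p) * (h00 * (1 - l0) + m * r0 * l0))) =
            p * (1 - p) * ((l1 - l0) * (h11 - h00 - q0)) +
              p * (1 - p) * (m * ((l1 - l0) * (r0 - r1))) := by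
          rw [hl, hr, hh]; ring
        linarith

theorem side_end (h0 : 0 ≤ p) (h1 : p ≤ 1) (hm : 0 < m) (hM : S0 ∪ Λ ⊆ M) :
    Side al x y z p m M Λ S0 (stG al x y z p m Λ S0 (fun _ _ => 0) (fun _ _ => 0))
      (fun _ _ => 0) := by
  classical
  have hle1 : E p Λ S0 (fl al z) ≤ 1 := E_le_one h0 h1 fun _ => ind_le_one _
  have hle0 : 0 ≤ E p Λ S0 (fl al z) := E_nonneg h0 h1 fun _ => ind_nonneg _
  refine ⟨?_, ?_, ?_, ?_⟩
  · intro X Y
    unfold stG
    split_ifs
    · exact fp_nonneg h0 h1 X Y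
    · simp
  · intro X Y; exact le_rfl
  · intro Y
    have hh0 : 0 ≤ E p Λ S0 (fh al x y z Y) := E_nonneg h0 h1 fun _ => ind_nonneg _
    by_cases hst : m * E p Λ S0 (fr al x y z Y) ≤ E p Λ S0 (fh al x y z Y)
    · simp only [stG, if_pos hst]
      rw [sum_rp al hM]
      exact hst
    · simp only [stG, if_neg hst]
      simpa using hh0
  · intro Y
    have hr0 : 0 ≤ E p Λ S0 (fr al x y z Y) := E_nonneg h0 h1 fun _ => ind_nonneg _
    have hh0 : 0 ≤ E p Λ S0 (fh al x y z Y) := E_nonneg h0 h1 fun _ => ind_nonneg _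
    simp only [Finset.sum_const_zero]
    exact add_nonneg (mul_nonneg hh0 (by linarith)) (mul_nonneg (mul_nonneg hm.le hr0) hle0)

end Step

/-- the pairwise bound at a state -/
def Pair (x y z : V) (p : ℝ) (Λ S0 : Finset (Sym2 V))
    (G W G' W' : Finset V → Finset V → ℝ) : Prop :=
  ∀ X Y : Finset V, E p Λ S0 (fp x y z X Y) * E p Λ S0 (fl al z) ≤
    E p Λ S0 (fun T => fp x y z X Y T * fl al z T) + G X Y + G' Y X + W X Y + W' Y X

section Pair

variable {al} {x y z c u : V} {p m : ℝ} {M Λ S0 : Finset (Sym2 V)}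

theorem Z_nonneg (h0 : 0 ≤ p) (h1 : p ≤ 1) (X Y : Finset V) :
    0 ≤ E p Λ S0 (fun T => fp x y z X Y T * fl al z T) :=
  E_nonneg h0 h1 fun _ => mul_nonneg (ind_nonneg _) (ind_nonneg _)

theorem rp_swap (X Y : Finset V) :
    E p Λ S0 (fp y x z Y X) = E p Λ S0 (fp x y z X Y) :=
  E_congr fun _ _ => fp_swap _ _ _ _ _ _

theorem pair_step (h0 : 0 ≤ p) (h1 : p ≤ 1) (hm : 0 < m)
    (hal : ∀ A B : Finset V, A ⊆ B → al A → al B)
    (hM : S0 ∪ Λ ⊆ M) (he : s(c, u) ∈ Λ) (hc : Cn S0 z c)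
    {G1 W1 G0 W0 G1' W1' G0' W0' : Finset V → Finset V → ℝ}
    (s1 : Side al x y z p m M (Λ.erase s(c, u)) (insert s(c, u) S0) G1 W1)
    (s0 : Side al x y z p m M (Λ.erase s(c, u)) S0 G0 W0)
    (s1' : Side al y x z p m M (Λ.erase s(c, u)) (insert s(c, u) S0) G1' W1')
    (s0' : Side al y x z p m M (Λ.erase s(c, u)) S0 G0' W0')
    (p1 : Pair al x y z p (Λ.erase s(c, u)) (insert s(c, u) S0) G1 W1 G1' W1')
    (p0 : Pair al x y z p (Λ.erase s(c, u)) S0 G0 W0 G0' W0') :
    Pair al x y z p Λ S0 (stG al x y z p m Λ S0 G1 G0)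
      (stW al x y z p m Λ S0 (E p Λ S0 (fl al z) - E p (Λ.erase s(c, u)) S0 (fl al z)) u W1 W0)
      (stG al y x z p m Λ S0 G1' G0')
      (stW al y x z p m Λ S0 (E p Λ S0 (fl al z) - E p (Λ.erase s(c, u)) S0 (fl al z)) u
        W1' W0') := by
  classical
  have t := side_step h0 h1 hm hal hM he hc s1 s0
  have t' := side_step h0 h1 hm hal hM he hc s1' s0'
  intro X Y
  have g1 := t.G0 X Y
  have g2 := t'.G0 Y X
  have g3 := t.W0 X Y
  have g4 := t'.W0 Y X
  have hq0 : 0 ≤ 1 - p := by linarith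
  have hz : ∀ S : Finset (Sym2 V), Cn (S0 ∪ S) z c := fun S => hc.mono Finset.subset_union_left
  have hle1 : E p Λ S0 (fl al z) ≤ 1 := E_le_one h0 h1 fun _ => ind_le_one _
  have hrp : 0 ≤ E p Λ S0 (fp x y z X Y) := fp_nonneg h0 h1 X Y
  have hZ : 0 ≤ E p Λ S0 (fun T => fp x y z X Y T * fl al z T) := Z_nonneg h0 h1 X Y
  have hbase : E p Λ S0 (fp x y z X Y) * E p Λ S0 (fl al z) ≤ E p Λ S0 (fp x y z X Y) := by
    nlinarith
  by_cases hst : m * E p Λ S0 (fr al x y z Y) ≤ E p Λ S0 (fh al x y z Y)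
  · have : stG al x y z p m Λ S0 G1 G0 X Y = E p Λ S0 (fp x y z X Y) := if_pos hst
    linarith
  by_cases hst' : m * E p Λ S0 (fr al y x z X) ≤ E p Λ S0 (fh al y x z X)
  · have : stG al y x z p m Λ S0 G1' G0' Y X = E p Λ S0 (fp y x z Y X) := if_pos hst'
    rw [rp_swap] at this
    linarith
  simp only [stG, stW, if_neg hst, if_neg hst'] at g1 g2 g3 g4 ⊢
  rw [rp_swap X Y] at g4 ⊢
  have hl := E_step p he S0 (fl al z)
  have hl01 : E p (Λ.erase s(c, u)) S0 (fl al z) ≤
      E p (Λ.erase s(c, u)) (insert s(c, u) S0) (fl al z) :=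
    E_br_ge h0 h1 fun S _ => fl_le hal _
  have ha : 0 ≤ E p Λ S0 (fl al z) - E p (Λ.erase s(c, u)) S0 (fl al z) := by
    rw [hl]; nlinarith
  have hr := E_step p he S0 (fp x y z X Y)
  have hZs := E_step p he S0 (fun T => fp x y z X Y T * fl al z T)
  have hZ1 : 0 ≤ E p (Λ.erase s(c, u)) (insert s(c, u) S0)
    (fun T => fp x y z X Y T * fl al z T) := Z_nonneg h0 h1 X Y
  have e1 := mul_le_mul_of_nonneg_left (p1 X Y) h0
  have e0 := mul_le_mul_of_nonneg_left (p0 X Y) hq0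
  have b1 : 0 ≤ p * G1 X Y := mul_nonneg h0 (s1.G0 X Y)
  have b2 : 0 ≤ p * G1' Y X := mul_nonneg h0 (s1'.G0 Y X)
  have b3 : 0 ≤ p * W1 X Y := mul_nonneg h0 (s1.W0 X Y)
  have b4 : 0 ≤ p * W1' Y X := mul_nonneg h0 (s1'.W0 Y X)
  have b5 := mul_nonneg h0 hZ1
  have c1 : 0 ≤ (E p Λ S0 (fl al z) - E p (Λ.erase s(c, u)) S0 (fl al z)) *
      (E p Λ S0 (fp x y z X Y) * ind (u ∈ X)) :=
    mul_nonneg ha (mul_nonneg hrp (ind_nonneg _))
  have c2 : 0 ≤ (E p Λ S0 (fl al z) - E p (Λ.erase s(c, u)) S0 (fl al z)) *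
      (E p Λ S0 (fp x y z X Y) * ind (u ∈ Y)) :=
    mul_nonneg ha (mul_nonneg hrp (ind_nonneg _))
  by_cases hX : u ∈ X
  · have hr1 : E p (Λ.erase s(c, u)) (insert s(c, u) S0) (fp x y z X Y) = 0 := by
      rw [E_br_eq (G := fun _ => 0) (fun S _ => fp_touch_left (hz S) hX), E_zero]
    rw [hr1] at hr
    rw [ind_of hX] at c1 ⊢
    have k : E p Λ S0 (fp x y z X Y) * E p Λ S0 (fl al z) =
        (1 - p) * (E p (Λ.erase s(c, u)) S0 (fp x y z X Y) *
          E p (Λ.erase s(c, u)) S0 (fl al z)) +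
        (E p Λ S0 (fl al z) - E p (Λ.erase s(c, u)) S0 (fl al z)) *
          (E p Λ S0 (fp x y z X Y) * 1) := by
      rw [hr]; ring
    linarith
  by_cases hY : u ∈ Y
  · have hr1 : E p (Λ.erase s(c, u)) (insert s(c, u) S0) (fp x y z X Y) = 0 := by
      rw [E_br_eq (G := fun _ => 0) (fun S _ => fp_touch_right (hz S) hY), E_zero]
    rw [hr1] at hr
    rw [ind_of hY] at c2 ⊢
    have k : E p Λ S0 (fp x y z X Y) * E p Λ S0 (fl al z) =
        (1 - p) * (E p (Λ.erase s(c, u)) S0 (fp x y z X Y) *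
          E p (Λ.erase s(c, u)) S0 (fl al z)) +
        (E p Λ S0 (fl al z) - E p (Λ.erase s(c, u)) S0 (fl al z)) *
          (E p Λ S0 (fp x y z X Y) * 1) := by
      rw [hr]; ring
    linarith
  · have hr1 : E p (Λ.erase s(c, u)) (insert s(c, u) S0) (fp x y z X Y) =
        E p (Λ.erase s(c, u)) S0 (fp x y z X Y) :=
      E_br_eq fun S _ => fp_same (hz S) hX hY
    have k : E p Λ S0 (fp x y z X Y) * E p Λ S0 (fl al z) =
        p * (E p (Λ.erase s(c, u)) (insert s(c, u) S0) (fp x y z X Y) *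
          E p (Λ.erase s(c, u)) (insert s(c, u) S0) (fl al z)) +
        (1 - p) * (E p (Λ.erase s(c, u)) S0 (fp x y z X Y) *
          E p (Λ.erase s(c, u)) S0 (fl al z)) := by
      rw [hr, hr1, hl]; ring
    linarith

theorem pair_end (h0 : 0 ≤ p) (h1 : p ≤ 1)
    (hend : ∀ S ⊆ Λ, cl (S0 ∪ S) z = cl S0 z) :
    Pair al x y z p Λ S0 (stG al x y z p m Λ S0 (fun _ _ => 0) (fun _ _ => 0)) (fun _ _ => 0)
      (stG al y x z p m Λ S0 (fun _ _ => 0) (fun _ _ => 0)) (fun _ _ => 0) := by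
  classical
  intro X Y
  have e1 : E p Λ S0 (fl al z) = fl al z S0 := by
    have : E p Λ S0 (fl al z) = E p Λ S0 (fun _ => fl al z S0) :=
      E_congr fun S hS => by unfold fl; rw [hend S hS]
    rw [this]; unfold E; simp
  have e2 : E p Λ S0 (fun T => fp x y z X Y T * fl al z T) =
      E p Λ S0 (fp x y z X Y) * fl al z S0 := by
    rw [← E_mul_const]
    exact E_congr fun S hS => by unfold fl; rw [hend S hS]
  rw [e1, e2]
  have g : ∀ (x y : V) (X Y : Finset V),
      0 ≤ stG al x y z p m Λ S0 (fun _ _ => 0) (fun _ _ => 0) X Y := by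
    intro x y X Y
    unfold stG
    split_ifs
    · exact fp_nonneg h0 h1 X Y
    · simp
  have := g x y X Y
  have := g y x Y X
  linarith

theorem cl_end (h : ∀ c u : V, s(c, u) ∈ Λ → Cn S0 z c → Cn S0 z u) :
    ∀ S ⊆ Λ, cl (S0 ∪ S) z = cl S0 z := by
  intro S hS
  ext w
  rw [mem_cl, mem_cl]
  refine ⟨fun hw => ?_, fun hw => hw.mono Finset.subset_union_left⟩
  refine Cn_closed (S := S0 ∪ S) (A := {w | Cn S0 z w}) ?_ (Cn.refl S0 z) hw
  intro a ha b hab
  rcases Finset.mem_union.1 hab with h1 | h1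
  · exact Cn.trans ha (Cn_of_mem h1)
  · exact h a b (hS h1) ha

theorem main (h0 : 0 ≤ p) (h1 : p ≤ 1) (hm : 0 < m)
    (hal : ∀ A B : Finset V, A ⊆ B → al A → al B) (x y z : V) (M : Finset (Sym2 V)) :
    ∀ (n : ℕ) (Λ S0 : Finset (Sym2 V)), Λ.card = n → S0 ∪ Λ ⊆ M →
      ∃ G W G' W', Side al x y z p m M Λ S0 G W ∧ Side al y x z p m M Λ S0 G' W' ∧
        Pair al x y z p Λ S0 G W G' W' := by
  intro n
  induction n with
  | zero =>
    intro Λ S0 hn hM
    refine ⟨_, _, _, _, side_end h0 h1 hm hM, side_end h0 h1 hm hM, pair_end h0 h1 ?_⟩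
    rw [Finset.card_eq_zero] at hn
    subst hn
    intro S hS
    rw [Finset.subset_empty.1 hS, Finset.union_empty]
  | succ n ih =>
    intro Λ S0 hn hM
    by_cases h : ∀ c u : V, s(c, u) ∈ Λ → Cn S0 z c → Cn S0 z u
    · exact ⟨_, _, _, _, side_end h0 h1 hm hM, side_end h0 h1 hm hM, pair_end h0 h1 (cl_end h)⟩
    · push Not at h
      obtain ⟨c, u, he, hc, -⟩ := h
      have hcard : (Λ.erase s(c, u)).card = n := by
        rw [Finset.card_erase_of_mem he, hn]; rfl
      have hΛ : Λ ⊆ M := Finset.subset_union_right.trans hM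
      have hS : S0 ⊆ M := Finset.subset_union_left.trans hM
      have hE : Λ.erase s(c, u) ⊆ M := (Finset.erase_subset _ _).trans hΛ
      obtain ⟨G1, W1, G1', W1', a1, a1', a1''⟩ := ih (Λ.erase s(c, u)) (insert s(c, u) S0) hcard
        (Finset.union_subset (Finset.insert_subset (hΛ he) hS) hE)
      obtain ⟨G0, W0, G0', W0', a0, a0', a0''⟩ := ih (Λ.erase s(c, u)) S0 hcard
        (Finset.union_subset hS hE)
      exact ⟨_, _, _, _, side_step h0 h1 hm hal hM he hc a1 a0,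
        side_step h0 h1 hm hal hM he hc a1' a0',
        pair_step h0 h1 hm hal hM he hc a1 a0 a1' a0' a1'' a0''⟩

end Pair

end Vale.Agent.P151.TC.H49
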