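import Vale.Agent.P151.TC.H49.TC2

/-!
# P151: the quasi-triangle inequality of helper505, final form
-/

set_option autoImplicit false
set_option linter.unusedSectionVars false

open Finset

namespace Vale.Agent.P151.TC.H49

open Vale.Agent.P151

variable {V : Type*} [DecidableEq V] (al : Finset V → Prop)

/-- `x`, `y` alive and not connected -/
noncomputable def Df (x y : V) (T : Finset (Sym2 V)) : ℝ :=
  ind (al (cl T x) ∧ al (cl T y) ∧ ¬ Cn T x y)

/-- `x`, `y` alive and not connected, `z` connected to neither -/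
noncomputable def Rf (x y z : V) (T : Finset (Sym2 V)) : ℝ :=
  ind (al (cl T x) ∧ al (cl T y) ∧ ¬ Cn T x y ∧ ¬ Cn T z x ∧ ¬ Cn T z y)

/-- `x`, `y` alive and not connected, `z` connected to `x` -/
noncomputable def Bf (x y z : V) (T : Finset (Sym2 V)) : ℝ :=
  ind (al (cl T x) ∧ al (cl T y) ∧ ¬ Cn T x y ∧ Cn T z x)

theorem Rf_swap (x y z : V) (T : Finset (Sym2 V)) : Rf al x y z T = Rf al y x z T := by
  unfold Rf
  apply ind_congr
  have : Cn T x y ↔ Cn T y x := ⟨Cn.symm, Cn.symm⟩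
  tauto

theorem sum_fr {M T : Finset (Sym2 V)} (hT : T ⊆ M) (x y z : V) :
    ∑ Y ∈ cls al M y, fr al x y z Y T = Rf al x y z T := by
  by_cases h : al (cl T y)
  · rw [Finset.sum_eq_single_of_mem (cl T y) (mem_cls al hT h)]
    · unfold fr Rf
      apply ind_congr
      constructor
      · rintro ⟨-, h2, h3, h4, h5⟩
        rw [mem_cl] at h2 h3
        exact ⟨h4, h, fun h6 => h3 h6.symm, h5, fun h6 => h2 h6.symm⟩
      · rintro ⟨h1, -, h3, h4, h5⟩
        refine ⟨rfl, ?_, ?_, h1, h4⟩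
        · rw [mem_cl]; exact fun h6 => h5 h6.symm
        · rw [mem_cl]; exact fun h6 => h3 h6.symm
    · intro Y _ hY
      exact ind_not fun h' => hY h'.1.symm
  · have h1 : Rf al x y z T = 0 := ind_not fun h' => h h'.2.1
    rw [h1]
    refine Finset.sum_eq_zero fun Y hY => ?_
    exact ind_not fun h' => h (by rw [h'.1]; exact al_of_mem al hY)

theorem sum_fh {M T : Finset (Sym2 V)} (hT : T ⊆ M) (x y z : V) :
    ∑ Y ∈ cls al M y, fh al x y z Y T = Bf al x y z T := by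
  by_cases h : al (cl T y)
  · rw [Finset.sum_eq_single_of_mem (cl T y) (mem_cls al hT h)]
    · unfold fh Bf
      apply ind_congr
      constructor
      · rintro ⟨-, -, h3, h4, h5⟩
        rw [mem_cl] at h3
        exact ⟨h4, h, fun h6 => h3 h6.symm, h5⟩
      · rintro ⟨h1, -, h3, h4⟩
        refine ⟨rfl, ?_, ?_, h1, h4⟩
        · rw [mem_cl]; exact fun h6 => h3 (h6.trans h4).symm
        · rw [mem_cl]; exact fun h6 => h3 h6.symm
    · intro Y _ hY
      exact ind_not fun h' => hY h'.1.symm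
  · have h1 : Bf al x y z T = 0 := ind_not fun h' => h h'.2.1
    rw [h1]
    refine Finset.sum_eq_zero fun Y hY => ?_
    exact ind_not fun h' => h (by rw [h'.1]; exact al_of_mem al hY)

theorem D_split (x y z : V) (T : Finset (Sym2 V)) :
    Df al x y T = Rf al x y z T + (Bf al x y z T + Bf al y x z T) := by
  unfold Df Rf Bf
  have e1 : Cn T y x ↔ Cn T x y := ⟨Cn.symm, Cn.symm⟩
  have e2 : Cn T z x → Cn T z y → Cn T x y := fun h h' => h.symm.trans h'
  by_cases a1 : al (cl T x) <;> by_cases a2 : al (cl T y) <;> by_cases a3 : Cn T x y <;>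
    by_cases a4 : Cn T z x <;> by_cases a5 : Cn T z y <;>
    first
      | exact absurd (e2 a4 a5) a3
      | simp [ind, a1, a2, a3, a4, a5, e1]

theorem Dl_split (x y z : V) (T : Finset (Sym2 V)) :
    Rf al x y z T * fl al z T + (Bf al x y z T + Bf al y x z T) ≤ Df al x y T * fl al z T := by
  unfold Df Rf Bf fl
  have e1 : Cn T y x ↔ Cn T x y := ⟨Cn.symm, Cn.symm⟩
  have e2 : Cn T z x → Cn T z y → Cn T x y := fun h h' => h.symm.trans h'
  have e3 : Cn T z x → al (cl T x) → al (cl T z) := fun h h' => by rw [cl_eq h]; exact h'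
  have e4 : Cn T z y → al (cl T y) → al (cl T z) := fun h h' => by rw [cl_eq h]; exact h'
  by_cases a1 : al (cl T x) <;> by_cases a2 : al (cl T y) <;> by_cases a3 : Cn T x y <;>
    by_cases a4 : Cn T z x <;> by_cases a5 : Cn T z y <;> by_cases a6 : al (cl T z) <;>
    first
      | exact absurd (e2 a4 a5) a3
      | exact absurd (e3 a4 a1) a6
      | exact absurd (e4 a5 a2) a6
      | simp [ind, a1, a2, a3, a4, a5, a6, e1]

theorem Esum_fr (p : ℝ) (M : Finset (Sym2 V)) (x y z : V) :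
    ∑ Y ∈ cls al M y, E p M ∅ (fr al x y z Y) = E p M ∅ (Rf al x y z) := by
  rw [← E_sum]
  exact E_congr fun S hS => sum_fr al (by simpa using hS) x y z

theorem Esum_fh (p : ℝ) (M : Finset (Sym2 V)) (x y z : V) :
    ∑ Y ∈ cls al M y, E p M ∅ (fh al x y z Y) = E p M ∅ (Bf al x y z) := by
  rw [← E_sum]
  exact E_congr fun S hS => sum_fh al (by simpa using hS) x y z

theorem Esum_fp (p : ℝ) (M : Finset (Sym2 V)) (x y z : V) :
    ∑ Y ∈ cls al M y, ∑ X ∈ cls al M x, E p M ∅ (fp x y z X Y) = E p M ∅ (Rf al x y z) := by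
  have hM : (∅ : Finset (Sym2 V)) ∪ M ⊆ M := by simp
  rw [Finset.sum_congr rfl fun Y _ => sum_rp al hM p Y]
  exact Esum_fr al p M x y z

theorem Esum_Z (p : ℝ) (M : Finset (Sym2 V)) (x y z : V) :
    ∑ Y ∈ cls al M y, ∑ X ∈ cls al M x, E p M ∅ (fun T => fp x y z X Y T * fl al z T) =
      E p M ∅ (fun T => Rf al x y z T * fl al z T) := by
  simp only [← E_sum]
  refine E_congr fun S hS => ?_
  have hT : ∅ ∪ S ⊆ M := by simpa using hS
  have h1 : ∀ Y : Finset V, ∑ X ∈ cls al M x, fp x y z X Y (∅ ∪ S) * fl al z (∅ ∪ S) =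
      fr al x y z Y (∅ ∪ S) * fl al z (∅ ∪ S) := fun Y =>
    sum_fp al hT Y (fun _ => fl al z (∅ ∪ S))
  rw [Finset.sum_congr rfl fun Y _ => h1 Y, ← Finset.sum_mul, sum_fr al hT]

/-- **the quasi-triangle inequality** (helper505): conditioning `x` and `y` to be in distinct alive
clusters does not prevent `z` from being alive. -/
theorem tc {p : ℝ} (h0 : 0 ≤ p) (h1 : p ≤ 1)
    (hal : ∀ A B : Finset V, A ⊆ B → al A → al B) (M : Finset (Sym2 V)) (x y z : V) :
    Ex p M (Df al x y) * Ex p M (fl al z) ≤ 10 * Ex p M (fun T => Df al x y T * fl al z T) := by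
  have hE : ∀ F : Finset (Sym2 V) → ℝ, Ex p M F = E p M ∅ F := fun F => by
    unfold E; simp
  simp only [hE]
  obtain ⟨G, W, G', W', s, s', pr⟩ := main (m := 1 / 4) h0 h1 (by norm_num) hal x y z M _ M ∅ rfl
    (by simp)
  have hl1 : E p M ∅ (fl al z) ≤ 1 := E_le_one h0 h1 fun _ => ind_le_one _
  have hl0 : 0 ≤ E p M ∅ (fl al z) := E_nonneg h0 h1 fun _ => ind_nonneg _
  -- sum of the pairwise bounds
  have hsum : E p M ∅ (Rf al x y z) * E p M ∅ (fl al z) ≤
      E p M ∅ (fun T => Rf al x y z T * fl al z T) +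
      ∑ Y ∈ cls al M y, ∑ X ∈ cls al M x, G X Y +
      ∑ X ∈ cls al M x, ∑ Y ∈ cls al M y, G' Y X +
      ∑ Y ∈ cls al M y, ∑ X ∈ cls al M x, W X Y +
      ∑ X ∈ cls al M x, ∑ Y ∈ cls al M y, W' Y X := by
    rw [Finset.sum_comm (f := fun X Y => G' Y X), Finset.sum_comm (f := fun X Y => W' Y X),
      ← Esum_fp al p M x y z, ← Esum_Z al p M x y z, Finset.sum_mul]
    rw [← Finset.sum_add_distrib, ← Finset.sum_add_distrib, ← Finset.sum_add_distrib,
      ← Finset.sum_add_distrib]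
    refine Finset.sum_le_sum fun Y _ => ?_
    rw [Finset.sum_mul, ← Finset.sum_add_distrib, ← Finset.sum_add_distrib,
      ← Finset.sum_add_distrib, ← Finset.sum_add_distrib]
    exact Finset.sum_le_sum fun X _ => pr X Y
  have hG : (1 / 4 : ℝ) * ∑ Y ∈ cls al M y, ∑ X ∈ cls al M x, G X Y ≤ E p M ∅ (Bf al x y z) := by
    rw [Finset.mul_sum, ← Esum_fh al p M x y z]
    exact Finset.sum_le_sum fun Y _ => s.hG Y
  have hG' : (1 / 4 : ℝ) * ∑ X ∈ cls al M x, ∑ Y ∈ cls al M y, G' Y X ≤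
      E p M ∅ (Bf al y x z) := by
    rw [Finset.mul_sum, ← Esum_fh al p M y x z]
    exact Finset.sum_le_sum fun X _ => s'.hG X
  have hW : ∑ Y ∈ cls al M y, ∑ X ∈ cls al M x, W X Y ≤
      E p M ∅ (Bf al x y z) * (1 - E p M ∅ (fl al z)) +
        1 / 4 * E p M ∅ (Rf al x y z) * E p M ∅ (fl al z) := by
    rw [← Esum_fh al p M x y z, ← Esum_fr al p M x y z, Finset.sum_mul, Finset.mul_sum,
      Finset.sum_mul, ← Finset.sum_add_distrib]
    exact Finset.sum_le_sum fun Y _ => s.hW Y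
  have hW' : ∑ X ∈ cls al M x, ∑ Y ∈ cls al M y, W' Y X ≤
      E p M ∅ (Bf al y x z) * (1 - E p M ∅ (fl al z)) +
        1 / 4 * E p M ∅ (Rf al x y z) * E p M ∅ (fl al z) := by
    have hsw : E p M ∅ (Rf al x y z) = E p M ∅ (Rf al y x z) :=
      E_congr fun S _ => Rf_swap al x y z _
    rw [hsw, ← Esum_fh al p M y x z, ← Esum_fr al p M y x z, Finset.sum_mul, Finset.mul_sum,
      Finset.sum_mul, ← Finset.sum_add_distrib]
    exact Finset.sum_le_sum fun X _ => s'.hW X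
  -- decomposition of `D`
  have hD : E p M ∅ (Df al x y) = E p M ∅ (Rf al x y z) +
      (E p M ∅ (Bf al x y z) + E p M ∅ (Bf al y x z)) := by
    rw [← E_add, ← E_add]
    exact E_congr fun S _ => D_split al x y z _
  have hDl : E p M ∅ (fun T => Rf al x y z T * fl al z T) +
      (E p M ∅ (Bf al x y z) + E p M ∅ (Bf al y x z)) ≤
      E p M ∅ (fun T => Df al x y T * fl al z T) := by
    rw [← E_add, ← E_add]
    exact E_mono h0 h1 fun S _ => Dl_split al x y z _
  have hA : 0 ≤ E p M ∅ (Bf al y x z) := E_nonneg h0 h1 fun _ => ind_nonneg _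
  have hB : 0 ≤ E p M ∅ (Bf al x y z) := E_nonneg h0 h1 fun _ => ind_nonneg _
  have hR : 0 ≤ E p M ∅ (fun T => Rf al x y z T * fl al z T) :=
    E_nonneg h0 h1 fun _ => mul_nonneg (ind_nonneg _) (ind_nonneg _)
  rw [hD]
  have k1 := mul_nonneg hA hl0
  have k2 := mul_nonneg hB hl0
  nlinarith

/-- the form with cluster sizes -/
theorem tc_size {p : ℝ} (h0 : 0 ≤ p) (h1 : p ≤ 1) (n : ℕ) (M : Finset (Sym2 V)) (x y z : V) :
    Ex p M (fun T => ind (n ≤ csz T x ∧ n ≤ csz T y ∧ ¬ Cn T x y)) *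
        Ex p M (fun T => ind (n ≤ csz T z)) ≤
      10 * Ex p M (fun T => ind (n ≤ csz T x ∧ n ≤ csz T y ∧ ¬ Cn T x y ∧ n ≤ csz T z)) := by
  have h := tc (fun A : Finset V => n ≤ A.card) h0 h1
    (fun A B hAB hA => hA.trans (Finset.card_le_card hAB)) M x y z
  have e : (fun T => Df (fun A : Finset V => n ≤ A.card) x y T *
      fl (fun A : Finset V => n ≤ A.card) z T) =
      fun T => ind (n ≤ csz T x ∧ n ≤ csz T y ∧ ¬ Cn T x y ∧ n ≤ csz T z) := by
    funext T
    unfold Df fl csz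
    by_cases h1 : n ≤ (cl T z).card
    · rw [ind_of h1, mul_one]
      exact ind_congr (by tauto)
    · rw [ind_not h1, mul_zero, ind_not (by tauto)]
  rw [e] at h
  exact h

/-- **quasi-triangle inequality** -/
theorem qt_size {p : ℝ} (h0 : 0 ≤ p) (h1 : p ≤ 1) (n : ℕ) (M : Finset (Sym2 V)) (x y z : V) :
    Ex p M (fun T => ind (n ≤ csz T x ∧ n ≤ csz T y ∧ ¬ Cn T x y)) *
        Ex p M (fun T => ind (n ≤ csz T z)) ≤
      10 * (Ex p M (fun T => ind (n ≤ csz T x ∧ n ≤ csz T z ∧ ¬ Cn T x z)) +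
        Ex p M (fun T => ind (n ≤ csz T z ∧ n ≤ csz T y ∧ ¬ Cn T z y))) := by
  refine (tc_size h0 h1 n M x y z).trans ?_
  refine mul_le_mul_of_nonneg_left ?_ (by norm_num)
  rw [← Ex_add]
  refine Ex_mono h0 h1 fun T _ => ?_
  by_cases h : n ≤ csz T x ∧ n ≤ csz T y ∧ ¬ Cn T x y ∧ n ≤ csz T z
  · rw [ind_of h]
    obtain ⟨a1, a2, a3, a4⟩ := h
    by_cases h2 : Cn T x z
    · have h3 : ¬ Cn T z y := fun h4 => a3 (h2.trans h4)
      rw [ind_of (show n ≤ csz T z ∧ n ≤ csz T y ∧ ¬ Cn T z y from ⟨a4, a2, h3⟩)]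
      have := ind_nonneg (n ≤ csz T x ∧ n ≤ csz T z ∧ ¬ Cn T x z)
      linarith
    · rw [ind_of (show n ≤ csz T x ∧ n ≤ csz T z ∧ ¬ Cn T x z from ⟨a1, a4, h2⟩)]
      have := ind_nonneg (n ≤ csz T z ∧ n ≤ csz T y ∧ ¬ Cn T z y)
      linarith
  · rw [ind_not h]
    exact add_nonneg (ind_nonneg _) (ind_nonneg _)

end Vale.Agent.P151.TC.H49
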